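import Mathlib
import Vale.Agent.P078.TwoEnd
import Vale.Agent.P078.Type3.Expect
import Vale.Agent.P078.Type3.Spectral

/-! The cut at the end of the walk, without a trace. -/

noncomputable section

open scoped ComplexOrder

set_option linter.unusedSectionVars false

namespace Vale.Agent.P078.T3

universe u v

variable {M : Type u} [CStarAlgebra M] [PartialOrder M] [StarOrderedRing M]
  {Ω : Type v} [TopologicalSpace Ω] [CompactSpace Ω] [T2Space Ω] (T : SMasa M Ω)

namespace SMasa

lemma emb_isStarProjection {p : C(Ω, ℝ)} (hp : p * p = p) : IsStarProjection (T.emb p) :=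
  ⟨by rw [IsIdempotentElem, ← map_mul, hp], T.emb_selfAdjoint p⟩

lemma isStarProjection_sub {p : C(Ω, ℝ)} (hp : p * p = p) {e : M} (he : IsStarProjection e)
    (hle : T.emb p * e = e) : IsStarProjection (T.emb p - e) := by
  have h' : e * T.emb p = e := by
    have h := congrArg star hle
    rwa [star_mul, he.isSelfAdjoint.star_eq, T.star_emb] at h
  refine ⟨?_, (T.emb_selfAdjoint p).sub he.isSelfAdjoint⟩
  show (T.emb p - e) * (T.emb p - e) = T.emb p - e
  rw [mul_sub, sub_mul, sub_mul, ← map_mul, hp, h', hle, he.isIdempotentElem.eq, sub_self,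
    sub_zero]

lemma le_emb_of_mul_eq {p : C(Ω, ℝ)} (hp : p * p = p) {e : M} (he : IsStarProjection e)
    (hle : T.emb p * e = e) : e ≤ T.emb p :=
  sub_nonneg.1 (T.isStarProjection_sub hp he hle).nonneg

lemma sum_le_one {r : ℕ} {p : Fin r → C(Ω, ℝ)} (hp : IsPartition p) {e : Fin r → M}
    (he : ∀ i, IsStarProjection (e i) ∧ T.emb (p i) * e i = e i) : ∑ i, e i ≤ 1 := by
  calc ∑ i, e i ≤ ∑ i, T.emb (p i) :=
        Finset.sum_le_sum fun i _ => T.le_emb_of_mul_eq (hp.idem i) (he i).1 (he i).2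
    _ = 1 := by rw [← map_sum, hp.sum_one, map_one]

lemma n2_sum_le {ι : Type*} (s : Finset ι) (f : ι → M) :
    T.n2 (∑ i ∈ s, f i) ≤ ∑ i ∈ s, T.n2 (f i) :=
  Finset.le_sum_of_subadditive T.n2 T.n2_zero.le T.n2_add s f

lemma n2_mul_proj_le {p : C(Ω, ℝ)} (hp : p * p = p) (x : M) :
    T.n2 (x * T.emb p) ≤ T.n2 x := by
  refine (T.n2_mul_emb p x).trans (mul_le_of_le_one_right (T.n2_nonneg x) ?_)
  refine (ContinuousMap.norm_le _ zero_le_one).2 fun ω => ?_
  rcases idem_zero_or_one hp ω with h | h <;> simp [h]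

/-- pinching by nearly full subprojections, for a fixed element -/
lemma exists_piece_sub_small (z : M) (r : ℕ) {η : ℝ} (hη : 0 < η) :
    ∃ d : ℝ, 0 < d ∧ ∀ (p : Fin r → C(Ω, ℝ)) (e : Fin r → M), IsPartition p →
      (∀ i, IsStarProjection (e i) ∧ T.emb (p i) * e i = e i) →
      1 - d ≤ ∑ i, T.tr (e i) →
      T.n2 ((∑ i, T.emb (p i) * z * T.emb (p i)) - ∑ i, e i * z * e i) ≤ η := by
  set η' := η / (2 * r + 1) with hη'
  have hη0 : 0 < η' := by positivity
  obtain ⟨d₀, hd₀, hsmall⟩ := T.n2_mul_right_small z 1 hη0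
  set s := min d₀ (η' / (‖z‖ + 1)) with hs
  have hs0 : 0 < s := lt_min hd₀ (by positivity)
  refine ⟨s ^ 2, pow_pos hs0 2, fun p e hp he hd => ?_⟩
  have hsum : ∑ i, T.tr (T.emb (p i) - e i) ≤ s ^ 2 := by
    simp only [map_sub, Finset.sum_sub_distrib]
    rw [← map_sum T.tr (fun i => T.emb (p i)), ← map_sum T.emb, hp.sum_one, map_one, T.tr_one]
    linarith
  rw [← Finset.sum_sub_distrib]
  refine (T.n2_sum_le _ _).trans ((Finset.sum_le_card_nsmul _ _ (2 * η') fun i _ => ?_).trans ?_)
  · have hq := T.isStarProjection_sub (hp.idem i) (he i).1 (he i).2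
    have hn : T.n2 (T.emb (p i) - e i) ≤ s := by
      refine (pow_le_pow_iff_left₀ (T.n2_nonneg _) hs0.le two_ne_zero).1 ?_
      rw [T.n2_sq, ip, hq.isSelfAdjoint.star_eq, hq.isIdempotentElem.eq]
      refine le_trans ?_ hsum
      exact Finset.single_le_sum (f := fun j => T.tr (T.emb (p j) - e j))
        (fun j _ => T.tr_nonneg (T.isStarProjection_sub (hp.idem j) (he j).1 (he j).2).nonneg)
        (Finset.mem_univ i)
    have e1 : T.emb (p i) * z * T.emb (p i) - e i * z * e i =
        (T.emb (p i) - e i) * z * T.emb (p i) + (e i * z) * (T.emb (p i) - e i) := by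
      simp only [sub_mul, mul_sub, mul_assoc]; abel
    rw [e1, two_mul]
    refine (T.n2_add _ _).trans (add_le_add ?_ ?_)
    · exact (T.n2_mul_proj_le (hp.idem i) _).trans
        (hsmall _ (TMasa.norm_isStarProjection_le hq) (hn.trans (min_le_left _ _)))
    · refine (T.n2_mul_left _ _).trans ?_
      have h1 : ‖e i * z‖ ≤ ‖z‖ + 1 := (norm_mul_le _ _).trans
        ((mul_le_of_le_one_left (norm_nonneg z) (TMasa.norm_isStarProjection_le (he i).1)).trans
          (le_add_of_nonneg_right zero_le_one))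
      have h2 : T.n2 (T.emb (p i) - e i) ≤ η' / (‖z‖ + 1) := hn.trans (min_le_right _ _)
      rw [le_div_iff₀ (by positivity)] at h2
      exact (mul_le_mul_of_nonneg_right h1 (T.n2_nonneg _)).trans (by linarith)
  · rw [Finset.card_univ, Fintype.card_fin, nsmul_eq_mul, hη']
    rw [mul_div_assoc', mul_div_assoc', div_le_iff₀ (by positivity)]
    linarith

/-- A projection of small co-trace on which two self-adjoint elements are small. -/
lemma exists_cut_pair {X₁ X₂ : M} (h₁ : IsSelfAdjoint X₁) (h₂ : IsSelfAdjoint X₂) {t : ℝ}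
    (ht : 0 < t) :
    ∃ q : M, IsStarProjection q ∧ t ^ 2 * T.tr (1 - q) ≤ T.n2 X₁ ^ 2 + T.n2 X₂ ^ 2 ∧
      ‖q * X₁ * q‖ ≤ t ∧ ‖q * X₂ * q‖ ≤ t := by
  set Z := X₁ * X₁ + X₂ * X₂ with hZ
  have hz1 : 0 ≤ X₁ * X₁ := h₁.mul_self_nonneg
  have hz2 : 0 ≤ X₂ * X₂ := h₂.mul_self_nonneg
  have hZ0 : 0 ≤ Z := add_nonneg hz1 hz2
  obtain ⟨Q, hQ, hcomm, hlow, hhigh⟩ :=
    T.exists_spectralProjection (IsSelfAdjoint.of_nonneg hZ0) (t ^ 2)
  refine ⟨1 - Q, hQ.one_sub, ?_, ?_⟩
  · have hc : Commute Z Q := hcomm Z (Commute.refl _)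
    have e : Q * Z * Q = Z * Q := by rw [← hc.eq, mul_assoc, hQ.isIdempotentElem.eq]
    have h3 : Z * Q ≤ Z := by
      have h4 : 0 ≤ (1 - Q) * Z * (1 - Q) := hQ.one_sub.isSelfAdjoint.conjugate_nonneg hZ0
      have e2 : (1 - Q) * Z * (1 - Q) = Z - Z * Q := by
        rw [sub_mul, one_mul, sub_mul, mul_sub, mul_sub, mul_one, mul_one, e, ← hc.eq]; abel
      rwa [e2, sub_nonneg] at h4
    have h5 := T.tr_mono (hlow.trans h3)
    rw [map_smul, smul_eq_mul] at h5
    rw [sub_sub_cancel, T.n2_sq, T.n2_sq, ip, ip, h₁.star_eq, h₂.star_eq, ← map_add]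
    exact h5
  · set q := 1 - Q with hq
    have hqp : IsStarProjection q := hQ.one_sub
    have hc : Commute Z q := (Commute.one_right Z).sub_right (hcomm Z (Commute.refl _))
    have hqZ : ‖q * Z * q‖ ≤ t ^ 2 := by
      have h0 : 0 ≤ q * Z * q := hqp.isSelfAdjoint.conjugate_nonneg hZ0
      refine (CStarAlgebra.norm_le_iff_le_algebraMap _ (sq_nonneg t) h0).2 ?_
      rw [← hc.eq, mul_assoc, hqp.isIdempotentElem.eq, Algebra.algebraMap_eq_smul_one]
      exact hhigh.trans (smul_le_smul_of_nonneg_left hqp.le_one (sq_nonneg t))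
    have key : ∀ X : M, IsSelfAdjoint X → X * X ≤ Z → ‖q * X * q‖ ≤ t := by
      intro X hX hle
      have h0 : 0 ≤ q * (X * X) * q := hqp.isSelfAdjoint.conjugate_nonneg hX.mul_self_nonneg
      have h1 : ‖q * (X * X) * q‖ ≤ t ^ 2 := (CStarAlgebra.norm_le_norm_of_nonneg_of_le h0
        (hqp.isSelfAdjoint.conjugate_le_conjugate hle)).trans hqZ
      have h2 : ‖X * q‖ ^ 2 ≤ t ^ 2 := by
        refine le_trans (le_of_eq ?_) h1
        rw [pow_two, ← CStarRing.norm_star_mul_self, star_mul, hX.star_eq,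
          hqp.isSelfAdjoint.star_eq]
        simp only [mul_assoc]
      calc ‖q * X * q‖ = ‖q * (X * q)‖ := by rw [mul_assoc]
        _ ≤ ‖q‖ * ‖X * q‖ := norm_mul_le _ _
        _ ≤ 1 * t := mul_le_mul (TMasa.norm_isStarProjection_le hqp)
            ((pow_le_pow_iff_left₀ (norm_nonneg _) ht.le two_ne_zero).1 h2) (norm_nonneg _)
            zero_le_one
        _ = t := one_mul t
    exact ⟨key X₁ h₁ (le_add_of_nonneg_right hz2), key X₂ h₂ (le_add_of_nonneg_left hz1)⟩

/-- the cut at the end of the walk, one channel -/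
lemma exists_piece_cut {v y : M} (hv : IsSelfAdjoint v) (hvv : v * v = y) (hy1 : y ≤ 1)
    {z a κ : ℝ}
    (hz : 0 ≤ z) (ha : 0 < a) (hκ : z / a < κ) {σ q : C(Ω, ℝ)} {R : M} (hq : q * q = q)
    (hqσ : a • q ≤ σ) (hR : IsSelfAdjoint R)
    (hgap : 0 ≤ z • (1 : M) - v * T.emb σ * v + R) :
    ∃ e : M, IsStarProjection e ∧ T.emb q * e = e ∧ e * y * e ≤ κ • e ∧
      T.tau q - T.tr e ≤ (T.n2 (R * v) / (a * (κ * (κ - z / a)))) ^ 2 := by
  set k := z / a with hk
  have hk0 : 0 ≤ k := div_nonneg hz ha.le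
  have hκ0 : 0 < κ := hk0.trans_lt hκ
  set dd := a * (κ * (κ - k)) with hdd
  have hdd0 : 0 < dd := mul_pos ha (mul_pos hκ0 (by linarith))
  have hak : a * k = z := by rw [hk]; field_simp
  set qq := T.emb q with hqq
  have hqqp : IsStarProjection qq := T.emb_isStarProjection hq
  have hqs : IsSelfAdjoint qq := hqqp.isSelfAdjoint
  have hqq2 : qq * qq = qq := hqqp.isIdempotentElem.eq
  set Y := R * v * qq with hY
  set X := star Y * Y with hX
  have hX0 : 0 ≤ X := star_mul_self_nonneg Y
  obtain ⟨Q, hQp, hQc, hQlow, hQup⟩ :=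
    T.exists_spectralProjection (IsSelfAdjoint.of_nonneg hX0) (dd ^ 2)
  have hYq : Y * qq = Y := by rw [hY, mul_assoc, hqq2]
  have hqY : qq * star Y = star Y := by
    have h := congrArg star hYq
    rwa [star_mul, hqs.star_eq] at h
  have hQX : Commute X Q := hQc X (Commute.refl X)
  have hQq : Commute qq Q := hQc qq (show qq * X = X * qq by
    rw [hX, ← mul_assoc, hqY, mul_assoc, hYq])
  set e := qq * (1 - Q) with he
  have hep : IsStarProjection e :=
    hqqp.mul hQp.one_sub ((Commute.one_right _).sub_right hQq)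
  have hes := hep.isSelfAdjoint
  have hqe : qq * e = e := by rw [he, ← mul_assoc, hqq2]
  have heq : e * qq = e := by
    have h := congrArg star hqe
    rwa [star_mul, hqs.star_eq, hes.star_eq] at h
  refine ⟨e, hep, hqe, ?_, ?_⟩
  · have hnorm : ‖e * v * R * v * e‖ ≤ dd := by
      have h0 : 0 ≤ e * X * e := hes.conjugate_nonneg hX0
      have h1 : e * X * e ≤ (dd ^ 2) • (1 : M) := by
        have hQ1 : IsStarProjection (1 - Q) := hQp.one_sub
        have hc : Commute X (1 - Q) := (Commute.one_right X).sub_right hQX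
        have e1 : e * X * e = qq * (X * (1 - Q)) * qq := by
          have c1 : (1 - Q) * qq = qq * (1 - Q) :=
            ((Commute.one_right _).sub_right hQq).eq.symm
          calc e * X * e = qq * (1 - Q) * X * ((1 - Q) * qq) := by rw [c1]
            _ = qq * ((1 - Q) * X * (1 - Q)) * qq := by simp only [mul_assoc]
            _ = qq * (X * (1 - Q)) * qq := by
                rw [← hc.eq, mul_assoc X, hQ1.isIdempotentElem.eq]
        rw [e1]
        refine (hqs.conjugate_le_conjugate hQup).trans ?_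
        rw [mul_smul_comm, smul_mul_assoc]
        refine smul_le_smul_of_nonneg_left ?_ (sq_nonneg dd)
        refine (hqs.conjugate_le_conjugate hQ1.le_one).trans ?_
        rw [mul_one, hqq2]; exact hqqp.le_one
      have h2 : ‖Y * e‖ ^ 2 ≤ dd ^ 2 := by
        rw [pow_two, ← CStarRing.norm_star_mul_self, star_mul, hes.star_eq,
          show e * star Y * (Y * e) = e * X * e by simp only [hX, mul_assoc]]
        refine (CStarAlgebra.norm_le_iff_le_algebraMap _ (sq_nonneg dd) h0).2 ?_
        rwa [Algebra.algebraMap_eq_smul_one]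
      have h3 : ‖Y * e‖ ≤ dd := (pow_le_pow_iff_left₀ (norm_nonneg _) hdd0.le two_ne_zero).1 h2
      have e2 : e * v * R * v * e = (e * v) * (Y * e) := by
        simp only [hY, mul_assoc, hqe]
      rw [e2]
      refine (norm_mul_le _ _).trans ((mul_le_of_le_one_left (norm_nonneg _) ?_).trans h3)
      refine (pow_le_pow_iff_left₀ (norm_nonneg _) zero_le_one two_ne_zero).1 ?_
      rw [one_pow, pow_two, ← CStarRing.norm_self_mul_star, star_mul, hv.star_eq, hes.star_eq,
        show e * v * (v * e) = e * y * e by rw [← hvv]; simp only [mul_assoc]]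
      have hy0 : 0 ≤ y := by rw [← hvv]; exact hv.mul_self_nonneg
      refine (CStarAlgebra.norm_le_one_iff_of_nonneg _ (hes.conjugate_nonneg hy0)).2 ?_
      refine (hes.conjugate_le_conjugate hy1).trans ?_
      rw [mul_one, hep.isIdempotentElem.eq]; exact hep.le_one
    set W := e * y * e with hW
    have hy0 : 0 ≤ y := by rw [← hvv]; exact hv.mul_self_nonneg
    have hW0 : 0 ≤ W := hes.conjugate_nonneg hy0
    have hWs : IsSelfAdjoint W := IsSelfAdjoint.of_nonneg hW0
    have hsq : a • (W * W) - z • W ≤ dd • (1 : M) := by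
      have h1 : a • (v * qq * v) ≤ z • (1 : M) + R := by
        refine le_trans ?_ (show v * T.emb σ * v ≤ z • (1 : M) + R by
          rw [← sub_nonneg]; convert hgap using 1; abel)
        have := hv.conjugate_le_conjugate (T.emb_mono hqσ)
        rwa [map_smul, mul_smul_comm, smul_mul_assoc] at this
      have h2 := star_left_conjugate_le_conjugate h1 (v * e)
      rw [star_mul, hv.star_eq, hes.star_eq] at h2
      have e1 : e * v * (a • (v * qq * v)) * (v * e) = a • (e * y * qq * y * e) := by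
        rw [mul_smul_comm, smul_mul_assoc, ← hvv]; simp only [mul_assoc]
      have e2 : e * v * (z • (1 : M) + R) * (v * e) = z • W + e * v * R * v * e := by
        rw [mul_add, add_mul, mul_smul_comm, mul_one, smul_mul_assoc, hW, ← hvv]
        simp only [mul_assoc]
      rw [e1, e2] at h2
      have h3 : W * W ≤ e * y * qq * y * e := by
        have hys : IsSelfAdjoint y := IsSelfAdjoint.of_nonneg hy0
        have h := star_left_conjugate_le_conjugate
          (T.isStarProjection_sub hq hep hqe).nonneg (y * e)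
        rw [star_mul, hys.star_eq, hes.star_eq, mul_zero, zero_mul, mul_sub, sub_mul,
          sub_nonneg] at h
        refine le_of_eq_of_le ?_ (le_of_le_of_eq h ?_)
        · simp only [hW, mul_assoc, ← mul_assoc e e, hep.isIdempotentElem.eq]
        · simp only [mul_assoc]; rfl
      have h4 : e * v * R * v * e ≤ dd • (1 : M) := by
        have hsa : IsSelfAdjoint (e * v * R * v * e) := by
          have := ((hR.conjugate_self hv).conjugate_self hes)
          simpa only [mul_assoc] using this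
        exact (TMasa.le_norm_smul_one hsa).trans (smul_le_smul_of_nonneg_right hnorm zero_le_one)
      rw [sub_le_iff_le_add, add_comm]
      exact ((smul_le_smul_of_nonneg_left h3 ha.le).trans h2).trans (add_le_add le_rfl h4)
    have hspec : ∀ s ∈ spectrum ℝ W, s ≤ κ := by
      have h : cfc (fun s : ℝ => a * (s * s) - z * s) W ≤ algebraMap ℝ M dd := by
        rw [cfc_sub _ _ W, cfc_const_mul _ _ W, cfc_const_mul _ _ W, cfc_mul _ _ W, cfc_id' ℝ W,
          Algebra.algebraMap_eq_smul_one]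
        exact hsq
      rw [cfc_le_algebraMap_iff _ _ _] at h
      intro s hs
      have h' := h s hs
      by_contra hlt
      push Not at hlt
      have : dd < a * (s * s) - z * s := by
        rw [hdd, ← hak]
        nlinarith [mul_lt_mul_of_pos_left (mul_lt_mul'' hlt (show κ - k < s - k by linarith)
          hκ0.le (by linarith)) ha]
      linarith
    have h1 : W ≤ κ • (1 : M) := by
      rw [← Algebra.algebraMap_eq_smul_one]
      exact (le_algebraMap_iff_spectrum_le hWs).2 hspec
    have h2 := hes.conjugate_le_conjugate h1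
    have h3 : e * W * e = W := by
      simp only [hW, ← mul_assoc, hep.isIdempotentElem.eq]
      simp only [mul_assoc, hep.isIdempotentElem.eq]
    rwa [h3, mul_smul_comm, mul_one, smul_mul_assoc, hep.isIdempotentElem.eq] at h2
  · have h1 : dd ^ 2 * T.tr Q ≤ T.n2 Y ^ 2 := by
      have e0 : Q * X * Q = X * Q := by rw [← hQX.eq, mul_assoc, hQp.isIdempotentElem.eq]
      have h4 : 0 ≤ (1 - Q) * X * (1 - Q) := hQp.one_sub.isSelfAdjoint.conjugate_nonneg hX0
      have e2 : (1 - Q) * X * (1 - Q) = X - X * Q := by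
        rw [sub_mul, one_mul, sub_mul, mul_sub, mul_sub, mul_one, mul_one, e0, ← hQX.eq]; abel
      rw [e2, sub_nonneg] at h4
      have h5 := T.tr_mono (hQlow.trans h4)
      rwa [map_smul, smul_eq_mul, show T.tr X = T.n2 Y ^ 2 from (T.n2_sq Y).symm] at h5
    have h2 : T.tau q - T.tr e ≤ T.tr Q := by
      rw [T.tau_apply, ← hqq, ← map_sub, he, mul_sub, mul_one, sub_sub_cancel]
      refine T.tr_mono ?_
      have h := hQp.isSelfAdjoint.conjugate_le_conjugate hqqp.le_one
      rwa [mul_one, hQp.isIdempotentElem.eq, ← hQq.eq, mul_assoc, hQp.isIdempotentElem.eq] at h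
    have h3 : T.n2 Y ≤ T.n2 (R * v) := T.n2_mul_proj_le hq _
    rw [div_pow, le_div_iff₀ (pow_pos hdd0 2)]
    have h6 := pow_le_pow_left₀ (T.n2_nonneg Y) h3 2
    nlinarith [mul_le_mul_of_nonneg_right h2 (sq_nonneg dd)]

/-- the pieces of a finished walk -/
lemma exists_pieces {r : ℕ} (hr : 1 ≤ r) {a : ℝ} (ha : 0 < a) {live : C(Ω, ℝ)}
    {sig : Fin r → C(Ω, ℝ)} (hl : live * live = live) (hsig : ∀ i, 0 ≤ sig i)
    (hassigned : ∀ ω, live ω = 0 → ∃ i, sig i ω = a ∧ ∀ j, j ≠ i → sig j ω = 0) :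
    ∃ p q : Fin r → C(Ω, ℝ), IsPartition p ∧ (∀ i, q i * q i = q i) ∧ (∀ i, a • q i ≤ sig i) ∧
      (∀ i, p i * q i = q i) ∧ (∑ i, T.tau (q i)) = 1 - T.tau live := by
  classical
  set q : Fin r → C(Ω, ℝ) := fun i => (1 - live) * (a⁻¹ • sig i) with hqdef
  have hqω : ∀ i ω, live ω = 1 ∧ q i ω = 0 ∨
      live ω = 0 ∧ (sig i ω = a ∧ q i ω = 1 ∨ sig i ω = 0 ∧ q i ω = 0) := by
    intro i ω
    rcases idem_zero_or_one hl ω with h0 | h1
    · refine Or.inr ⟨h0, ?_⟩
      obtain ⟨j, hj, hj'⟩ := hassigned ω h0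
      rcases eq_or_ne i j with rfl | h
      · refine Or.inl ⟨hj, ?_⟩
        show (1 - live ω) * (a⁻¹ * sig i ω) = 1
        rw [h0, hj, sub_zero, one_mul]
        exact inv_mul_cancel₀ ha.ne'
      · refine Or.inr ⟨hj' i h, ?_⟩
        show (1 - live ω) * (a⁻¹ * sig i ω) = 0
        rw [hj' i h, mul_zero, mul_zero]
    · refine Or.inl ⟨h1, ?_⟩
      show (1 - live ω) * (a⁻¹ * sig i ω) = 0
      rw [h1, sub_self, zero_mul]
  have hqi : ∀ i, q i * q i = q i := fun i => by
    ext ω
    rw [ContinuousMap.mul_apply]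
    rcases hqω i ω with ⟨-, h⟩ | ⟨-, ⟨-, h⟩ | ⟨-, h⟩⟩ <;> rw [h] <;> norm_num
  have hqσ : ∀ i, a • q i ≤ sig i := fun i => ContinuousMap.le_def.2 fun ω => by
    rw [ContinuousMap.smul_apply, smul_eq_mul]
    rcases hqω i ω with ⟨-, h⟩ | ⟨-, ⟨h', h⟩ | ⟨-, h⟩⟩
    · rw [h, mul_zero]; exact hsig i ω
    · rw [h, h', mul_one]
    · rw [h, mul_zero]; exact hsig i ω
  have hqsum : ∀ ω, live ω + ∑ i, q i ω = 1 := by
    intro ω
    rcases idem_zero_or_one hl ω with h0 | h1
    · obtain ⟨j, hj, hj'⟩ := hassigned ω h0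
      rw [Finset.sum_eq_single j]
      · rcases hqω j ω with ⟨h, -⟩ | ⟨-, ⟨-, h⟩ | ⟨h, -⟩⟩
        · rw [h0] at h; exact absurd h zero_ne_one
        · rw [h0, h]; norm_num
        · rw [hj] at h; exact absurd h ha.ne'
      · intro i _ hi
        rcases hqω i ω with ⟨-, h⟩ | ⟨-, ⟨h', -⟩ | ⟨-, h⟩⟩
        · exact h
        · rw [hj' i hi] at h'; exact absurd h'.symm ha.ne'
        · exact h
      · simp
    · rw [h1, Finset.sum_eq_zero, add_zero]
      intro i _
      rcases hqω i ω with ⟨-, h⟩ | ⟨h, -⟩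
      · exact h
      · rw [h1] at h; exact absurd h one_ne_zero
  let i₀ : Fin r := ⟨0, hr⟩
  refine ⟨fun i => q i + if i = i₀ then live else 0, q, ?_, hqi, hqσ, fun i => ?_, ?_⟩
  · refine ⟨fun i => ?_, fun i j hij => ?_, ?_⟩
    · ext ω
      simp only [ContinuousMap.mul_apply, ContinuousMap.add_apply]
      rcases hqω i ω with ⟨hl, h⟩ | ⟨hl, ⟨-, h⟩ | ⟨-, h⟩⟩ <;> split_ifs <;> simp [h, hl]
    · ext ω
      simp only [ContinuousMap.mul_apply, ContinuousMap.add_apply, ContinuousMap.zero_apply]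
      have hnn : ∀ k, 0 ≤ q k ω := fun k => idem_nonneg (hqi k) ω
      have hpair : q i ω + q j ω ≤ ∑ k, q k ω := by
        rw [← Finset.sum_pair (f := fun k => q k ω) hij]
        exact Finset.sum_le_sum_of_subset_of_nonneg (Finset.subset_univ _) fun k _ _ => hnn k
      have hl0 : 0 ≤ live ω := idem_nonneg hl ω
      have hlq : ∀ k, live ω * q k ω = 0 := fun k => by
        rcases hqω k ω with ⟨-, h⟩ | ⟨h, -⟩ <;> simp [h]
      have hqq0 : q i ω * q j ω = 0 := by
        rcases idem_zero_or_one (hqi i) ω with h | h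
        · rw [h, zero_mul]
        · rcases idem_zero_or_one (hqi j) ω with h' | h'
          · rw [h', mul_zero]
          · linarith [hqsum ω]
      split_ifs with hi hj hj
      · exact absurd (hi.trans hj.symm) hij
      · simp only [ContinuousMap.zero_apply, add_zero]
        linear_combination hqq0 + hlq j
      · simp only [ContinuousMap.zero_apply, add_zero]
        linear_combination hqq0 + hlq i
      · simp only [ContinuousMap.zero_apply, add_zero]
        exact hqq0
    · ext ω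
      simp only [ContinuousMap.sum_apply, ContinuousMap.add_apply, ContinuousMap.one_apply]
      have e : ∀ i, (if i = i₀ then live else 0) ω = if i = i₀ then live ω else 0 :=
        fun i => by split_ifs <;> rfl
      simp only [Finset.sum_add_distrib, e, Finset.sum_ite_eq', Finset.mem_univ, if_true]
      linarith [hqsum ω]
  · have hlq : live * q i = 0 := by
      ext ω
      rw [ContinuousMap.mul_apply]
      rcases hqω i ω with ⟨-, h⟩ | ⟨h, -⟩ <;> simp [h]
    beta_reduce
    split_ifs <;> simp [add_mul, hqi i, hlq]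
  · have e1 : live + ∑ i, q i = 1 := by
      ext ω
      simpa [ContinuousMap.sum_apply] using hqsum ω
    have := congrArg T.tau e1
    rw [map_add, map_sum, T.tau_one] at this
    linarith

/-- both signs are cut by one projection -/
lemma exists_two_sided_cut {ε δ : ℝ} (r : ℕ) (hε : 0 < ε) {x : M} (hx : IsSelfAdjoint x)
    (hx1 : ‖x‖ ≤ 1) (hδ : 0 < δ) :
    ∃ d : ℝ, 0 < d ∧ ∀ (p : Fin r → C(Ω, ℝ)) (e : Fin r → Bool → M), IsPartition p →
      (∀ s i, IsStarProjection (e i s) ∧ T.emb (p i) * e i s = e i s) →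
      (∀ s, 1 - d ≤ ∑ i, T.tr (e i s)) →
      (∀ i s, e i s * TMasa.ypm x s * e i s ≤ (1 / 2 + 2 * ε) • e i s) →
      ∃ q : M, IsStarProjection q ∧ T.tr (1 - q) ≤ δ ∧
        ‖q * (∑ i, T.emb (p i) * x * T.emb (p i)) * q‖ ≤ 5 * ε := by
  set m := min δ 1 with hm
  have hm0 : 0 < m := lt_min hδ one_pos
  obtain ⟨d₁, hd₁, hs₁⟩ :=
    T.exists_piece_sub_small (TMasa.ypm x true) r (show 0 < ε * m / 4 by positivity)
  obtain ⟨d₂, hd₂, hs₂⟩ :=
    T.exists_piece_sub_small (TMasa.ypm x false) r (show 0 < ε * m / 4 by positivity)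
  refine ⟨min d₁ d₂, lt_min hd₁ hd₂, fun p e hp he htr hκ => ?_⟩
  set G := fun s => ∑ i, e i s * TMasa.ypm x s * e i s with hG
  set Yp := fun s => ∑ i, T.emb (p i) * TMasa.ypm x s * T.emb (p i) with hYp
  have hysa : ∀ s, IsSelfAdjoint (TMasa.ypm x s) :=
    fun s => .of_nonneg (TMasa.ypm_facts hx hx1 s).1
  have hGle : ∀ s, G s ≤ (1 / 2 + 2 * ε) • (1 : M) := fun s => by
    refine (Finset.sum_le_sum fun i _ => hκ i s).trans ?_
    rw [← Finset.smul_sum]
    exact smul_le_smul_of_nonneg_left (T.sum_le_one hp (he s)) (by linarith)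
  have hdist : ∀ s, T.n2 ((2 : ℝ) • (Yp s - G s)) ≤ ε * m / 2 := fun s => by
    have h : T.n2 (Yp s - G s) ≤ ε * m / 4 := by
      cases s
      · exact hs₂ p (fun i => e i false) hp (he false)
          ((sub_le_sub_left (min_le_right _ _) _).trans (htr false))
      · exact hs₁ p (fun i => e i true) hp (he true)
          ((sub_le_sub_left (min_le_left _ _) _).trans (htr true))
    rw [T.n2_smul, abs_two]
    linarith
  have hXsa : ∀ s, IsSelfAdjoint ((2 : ℝ) • (Yp s - G s)) := fun s =>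
    IsSelfAdjoint.smul (IsSelfAdjoint.all _)
      ((isSelfAdjoint_sum _ fun i _ => (hysa s).conjugate_self (T.emb_selfAdjoint _)).sub
        (isSelfAdjoint_sum _ fun i _ => (hysa s).conjugate_self (he s i).1.isSelfAdjoint))
  obtain ⟨Q, hQ, hQtr, hQ1, hQ2⟩ := T.exists_cut_pair (hXsa true) (hXsa false) hε
  refine ⟨Q, hQ, ?_, ?_⟩
  · have b1 := pow_le_pow_left₀ (T.n2_nonneg _) (hdist true) 2
    have b2 := pow_le_pow_left₀ (T.n2_nonneg _) (hdist false) 2
    refine le_of_mul_le_mul_left (hQtr.trans ((add_le_add b1 b2).trans ?_)) (pow_pos hε 2)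
    calc (ε * m / 2) ^ 2 + (ε * m / 2) ^ 2 = ε ^ 2 * (m * m / 2) := by ring
      _ ≤ ε ^ 2 * δ := mul_le_mul_of_nonneg_left (by
          nlinarith [min_le_left δ 1, min_le_right δ 1]) (sq_nonneg ε)
  · have hpx : ∀ s, (2 : ℝ) • Yp s =
        1 + if s then (∑ i, T.emb (p i) * x * T.emb (p i))
          else -(∑ i, T.emb (p i) * x * T.emb (p i)) := by
      intro s
      have e1 : ∑ i, T.emb (p i) * 1 * T.emb (p i) = 1 := by
        simp only [mul_one, ← map_mul, hp.idem]
        rw [← map_sum, hp.sum_one, map_one]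
      simp only [hYp, Finset.smul_sum, TMasa.ypm, mul_smul_comm, smul_mul_assoc, smul_smul]
      norm_num
      cases s <;>
        simp only [Bool.false_eq_true, if_false, if_true, mul_sub, sub_mul, mul_add, add_mul,
          Finset.sum_sub_distrib, Finset.sum_add_distrib, e1]
      abel
    have hsum : ∀ s, (if s then (∑ i, T.emb (p i) * x * T.emb (p i))
        else -(∑ i, T.emb (p i) * x * T.emb (p i))) ≤
          (4 * ε) • (1 : M) + (2 : ℝ) • (Yp s - G s) := fun s => by
      have h1 : (0 : M) ≤ (2 * (1 / 2 + 2 * ε)) • (1 : M) - (2 : ℝ) • G s := by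
        rw [sub_nonneg, mul_smul]
        exact smul_le_smul_of_nonneg_left (hGle s) zero_le_two
      rw [smul_sub, hpx s]
      refine sub_nonneg.1 (h1.trans_eq ?_)
      rw [show (2 : ℝ) * (1 / 2 + 2 * ε) = 1 + 4 * ε by ring, add_smul, one_smul]
      abel
    rw [show 5 * ε = 4 * ε + ε by ring]
    have hSsa : IsSelfAdjoint (∑ i, T.emb (p i) * x * T.emb (p i)) :=
      isSelfAdjoint_sum _ fun i _ => hx.conjugate_self (T.emb_selfAdjoint _)
    refine TMasa.norm_le_of_two_sided (hSsa.conjugate_self hQ.isSelfAdjoint) (by positivity)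
      (TMasa.conj_le_of_le_add hQ (hXsa true) (by positivity) hQ1 (hsum true)) ?_
    have h2 := TMasa.conj_le_of_le_add hQ (hXsa false) (by positivity) hQ2 (hsum false)
    simp only [Bool.false_eq_true, if_false] at h2
    rwa [mul_neg, neg_mul] at h2

end SMasa

end Vale.Agent.P078.T3
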