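import Mathlib
import Vale.Agent.P078.Type3.Specs5
import Vale.Agent.P078.Type3.End.Cut

/-! Start, iteration and end of the trace-free walk. -/

noncomputable section

open scoped ComplexOrder

set_option linter.unusedSectionVars false

namespace Vale.Agent.P078.T3

open TMasa (ypm vpm ypm_facts)

universe u v

variable {M : Type u} [CStarAlgebra M] [PartialOrder M] [StarOrderedRing M]
  {Ω : Type v} [TopologicalSpace Ω] [CompactSpace Ω] [T2Space Ω]

namespace SMasa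

variable {T : SMasa M Ω} {P : Params} {x : M}

lemma End.vpm_mul_self (hx : IsSelfAdjoint x) (hx1 : ‖x‖ ≤ 1) (s : Bool) :
    vpm x s * vpm x s = ypm x s :=
  CFC.sqrt_mul_sqrt_self _ (ypm_facts hx hx1 s).1

lemma End.vpm_sa (s : Bool) : IsSelfAdjoint (vpm x s) := (CFC.sqrt_nonneg _).isSelfAdjoint

lemma End.Asum_nonneg {S : Smalls} (hγ : 0 < S.γ) {st : TSt M Ω P.r} (hst : T.Inv P x S st)
    (i : Fin P.r) : 0 ≤ T.Asum P x st i :=
  add_nonneg
    (T.E_nonneg ((End.vpm_sa true).conjugate_nonneg (Res.res_nonneg hγ (hst.gap i true))))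
    (T.E_nonneg ((End.vpm_sa false).conjugate_nonneg (Res.res_nonneg hγ (hst.gap i false))))

lemma End.psiC_le {ε : ℝ} (hε : 0 < ε) {u : ℝ} (h0 : 0 ≤ u) (h1 : u ≤ 1 - 2 * ε) :
    Two.psiC ε u ≤ 4 := by
  rw [Two.psiC, min_eq_left (by linarith)]
  have hd : 0 < 1 + ε - u := by linarith
  have e : Two.spOf ε u = ε * u / (1 + ε - u) := by rw [Two.spOf, Two.mOf, mul_one_div]
  have h2 : 0 ≤ Two.spOf ε u := by rw [e]; positivity
  have h3 : Two.spOf ε u ≤ 1 := by
    rw [e, div_le_one hd]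
    nlinarith
  unfold Two.psi
  nlinarith

lemma End.Fval_le (hP : P.Ok) {S : Smalls} (hγ : 0 < S.γ) {st : TSt M Ω P.r}
    (hst : T.Inv P x S st) (ω : Ω) : T.Fval P x st ω ≤ 5 * P.r := by
  have hε := hP.ε_pos
  have hphi : ∀ i, 0 ≤ cphi2 (st.sig i) ω := fun i =>
    mul_nonneg (mul_nonneg zero_le_two (hst.sig_nonneg i ω))
      (by linarith [hst.sig_le i ω])
  have h1 : ∀ i, T.fval P x st i ω ≤ 4 := by
    intro i
    have e : cpsi2 P.ε (st.sig i) ω = Two.psiC P.ε (st.sig i ω) := by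
      simp only [cpsi2, ContinuousMap.coe_mk, dif_pos hε]
    have h : 0 ≤ cphi2 (st.sig i) ω * T.Asum P x st i ω :=
      mul_nonneg (hphi i) (End.Asum_nonneg hγ hst i ω)
    have h' : Two.psiC P.ε (st.sig i ω) ≤ 4 :=
      End.psiC_le hε (hst.sig_nonneg i ω) (hst.sig_le i ω)
    show cpsi2 P.ε (st.sig i) ω - cphi2 (st.sig i) ω * T.Asum P x st i ω ≤ 4
    linarith
  have h2 : ∀ i, P.β₀ * (1 - T.act P st i ω) ≤ 1 := by
    intro i
    have ha : 0 ≤ T.act P st i ω := idem_nonneg (T.pos_mul_self _) ω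
    have hb : 0 ≤ P.β₀ := by unfold Params.β₀; positivity
    have hb1 : P.β₀ ≤ 1 := by unfold Params.β₀; nlinarith [hP.ε_le]
    nlinarith
  simp only [Fval, ContinuousMap.add_apply, ContinuousMap.sum_apply, ContinuousMap.smul_apply,
    smul_eq_mul, ContinuousMap.sub_apply, ContinuousMap.one_apply, Finset.mul_sum]
  refine (add_le_add (Finset.sum_le_sum fun i _ => h1 i) (Finset.sum_le_sum fun i _ => h2 i)).trans
    (le_of_eq ?_)
  simp
  ring

lemma End.Vpot_parts (hP : P.Ok) {S : Smalls} (hμ : 0 ≤ S.μ) (hγ : 0 < S.γ) (hA : 0 ≤ S.A)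
    {st : TSt M Ω P.r} (hst : T.Inv P x S st) :
    0 ≤ T.Vpot P x S st ∧
      S.A * S.μ * (∑ i, (T.n2 (st.R i true * vpm x true) ^ 2
        + T.n2 (st.R i false * vpm x false) ^ 2)) ≤ T.Vpot P x S st := by
  have h1 : 0 ≤ T.tau (st.live * (chub2 (T.xval P x st)
      + S.μ • (T.xval P x st + ContinuousMap.const Ω P.off))) := by
    refine T.tau_nonneg fun ω => mul_nonneg (idem_nonneg hst.live_idem ω) ?_
    refine add_nonneg (Profile.hub_nonneg _) (mul_nonneg hμ ?_)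
    show 0 ≤ (P.L - T.Fval P x st ω) + 5 * P.r
    linarith [End.Fval_le hP hγ hst ω, hP.L_ge]
  have h2 : 0 ≤ S.μ * (∑ i, T.tau (st.sig i)) :=
    mul_nonneg hμ (Finset.sum_nonneg fun i _ => T.tau_nonneg (hst.sig_nonneg i))
  have h3 : 0 ≤ S.μ * (∑ i, T.tau (T.Asum P x st i)) :=
    mul_nonneg hμ (Finset.sum_nonneg fun i _ => T.tau_nonneg (End.Asum_nonneg hγ hst i))
  have h4 : 0 ≤ S.A * S.μ * (∑ i, (T.n2 (st.R i true * vpm x true) ^ 2
      + T.n2 (st.R i false * vpm x false) ^ 2)) :=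
    mul_nonneg (mul_nonneg hA hμ) (Finset.sum_nonneg fun i _ => by positivity)
  rw [Vpot]
  exact ⟨by linarith, by linarith⟩

/-- iteration of the step -/
lemma End.exists_end (hP : P.Ok) {S : Smalls} (hμ : 0 ≤ S.μ) (hγ : 0 < S.γ) (hA : 0 ≤ S.A)
    {B c₀ ηf : ℝ} (hc₀ : 0 < c₀)
    (hstep : ∀ st : TSt M Ω P.r, T.Inv P x S st → T.Vpot P x S st ≤ B → ηf ≤ T.tau st.live →
      ∃ st' : TSt M Ω P.r, T.Inv P x S st' ∧ T.Vpot P x S st' ≤ T.Vpot P x S st - c₀)
    {st₀ : TSt M Ω P.r} (h₀ : T.Inv P x S st₀) (hW₀ : T.Vpot P x S st₀ ≤ B) :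
    ∃ st : TSt M Ω P.r, T.Inv P x S st ∧ T.Vpot P x S st ≤ B ∧ T.tau st.live < ηf := by
  by_contra hne
  push Not at hne
  have key : ∀ n : ℕ, ∃ st : TSt M Ω P.r, T.Inv P x S st ∧
      T.Vpot P x S st ≤ B - n * c₀ := by
    intro n
    induction n with
    | zero => exact ⟨st₀, h₀, by simpa using hW₀⟩
    | succ n ih =>
      obtain ⟨st, hst, hW⟩ := ih
      have hB : T.Vpot P x S st ≤ B := hW.trans (by
        have : 0 ≤ (n : ℝ) * c₀ := by positivity
        linarith)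
      obtain ⟨st', hst', hW'⟩ := hstep st hst hB (hne st hst hB)
      refine ⟨st', hst', ?_⟩
      push_cast
      linarith
  obtain ⟨n, hn⟩ := exists_nat_gt (B / c₀)
  obtain ⟨st, hst, hW⟩ := key n
  have h := (End.Vpot_parts hP hμ hγ hA hst).1
  rw [div_lt_iff₀ hc₀] at hn
  linarith

variable (T) in
/-- the start of the walk -/
lemma End.exists_start (hP : P.Ok) (hx : IsSelfAdjoint x) (hx1 : ‖x‖ ≤ 1) {μ γ A : ℝ}
    (hμ : 0 ≤ μ) (hγ : γ ≤ 1 / 4) :
    ∃ st : TSt M Ω P.r, T.Inv P x ⟨μ, γ, A⟩ st ∧ T.Vpot P x ⟨μ, γ, A⟩ st ≤ μ * P.K₀ := by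
  have hε := hP.ε_pos
  have hε1 := hP.ε_le
  set s0 := P.ε / 8 with hs0
  set z := (1 + P.ε) / 2 with hz
  set st : TSt M Ω P.r := ⟨fun _ => ContinuousMap.const Ω s0, fun _ _ => 0, 1⟩ with hst
  have hs00 : 0 ≤ s0 := by rw [hs0]; linarith
  have hg0 : 1 / 2 ≤ z - s0 := by rw [hz, hs0]; linarith
  have hgp : 0 < z - s0 := by linarith
  have hgap : ∀ i s, (z - s0) • (1 : M) ≤ T.Zop P x st i s := by
    intro i s
    obtain ⟨hy, hy1⟩ := ypm_facts hx hx1 s
    have e : T.emb (ContinuousMap.const Ω s0) = s0 • (1 : M) := by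
      rw [show ContinuousMap.const Ω s0 = s0 • (1 : C(Ω, ℝ)) from by ext; simp, map_smul, map_one]
    show _ ≤ z • (1 : M) - vpm x s * T.emb (ContinuousMap.const Ω s0) * vpm x s + 0
    rw [add_zero, e, mul_smul_comm, mul_one, smul_mul_assoc, End.vpm_mul_self hx hx1, sub_smul]
    exact sub_le_sub_left (smul_le_smul_of_nonneg_left hy1 hs00) _
  refine ⟨st, ⟨one_mul _, fun i ω => hs00,
    fun i ω => show s0 ≤ 1 - 2 * P.ε by rw [hs0]; linarith,
    fun ω h => absurd h one_ne_zero, fun i s => IsSelfAdjoint.zero _, fun i s =>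
      le_trans (smul_le_smul_of_nonneg_right (show γ ≤ z - s0 by linarith) zero_le_one)
        (hgap i s)⟩, ?_⟩
  have hav : ∀ i, T.Asum P x st i ≤ (1 / (z - s0)) • (1 : C(Ω, ℝ)) := by
    intro i
    have h : ∀ s, T.aval P x st i s ≤ T.E ((1 / (z - s0)) • ypm x s) := fun s => by
      refine T.E_mono ?_
      have := (End.vpm_sa (x := x) s).conjugate_le_conjugate (Res.res_le hgp (hgap i s))
      rwa [mul_smul_comm, mul_one, smul_mul_assoc, End.vpm_mul_self hx hx1] at this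
    refine (add_le_add (h true) (h false)).trans (le_of_eq ?_)
    rw [← map_add, ← smul_add, show ypm x true + ypm x false = 1 by
        show (1 / 2 : ℝ) • (1 + x) + (1 / 2 : ℝ) • (1 - x) = 1
        rw [← smul_add, show (1 + x) + (1 - x) = (2 : ℝ) • (1 : M) by rw [two_smul]; abel, smul_smul]
        norm_num,
      map_smul, T.E_one]
  have hav' : ∀ i ω, T.Asum P x st i ω ≤ 1 / (z - s0) := fun i ω => by simpa using hav i ω
  have hphi : 0 ≤ Two.phi s0 :=
    mul_nonneg (by linarith) (by rw [hs0]; linarith)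
  have hpsi : Two.psiC P.ε s0 = Two.psi P.ε s0 := by
    rw [Two.psiC, min_eq_left (by rw [hs0]; linarith)]
  have hF : ∀ ω, P.L + 1 ≤ T.Fval P x st ω := by
    intro ω
    refine hP.start.trans ?_
    have hb : 0 ≤ (P.β₀ • ∑ i, (1 - T.act P st i)) ω := by
      rw [ContinuousMap.smul_apply, smul_eq_mul, ContinuousMap.sum_apply]
      refine mul_nonneg (by unfold Params.β₀; positivity) (Finset.sum_nonneg fun i _ => ?_)
      exact sub_nonneg.2 (idem_le_one (T.pos_mul_self (st.sig i)) ω)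
    have ha : (P.r : ℝ) * (P.ε ^ 2 / 20) ≤ (∑ i, T.fval P x st i) ω := by
      rw [ContinuousMap.sum_apply]
      calc (P.r : ℝ) * (P.ε ^ 2 / 20) = ∑ _i : Fin P.r, P.ε ^ 2 / 20 := by simp
        _ ≤ ∑ _i : Fin P.r, (Two.psi P.ε s0 - Two.phi s0 * (1 / (z - s0))) :=
            Finset.sum_le_sum fun i _ => Two.start_ge hε hε1
        _ ≤ _ := by
          refine Finset.sum_le_sum fun i _ => ?_
          show _ ≤ cpsi2 P.ε (st.sig i) ω - Two.phi s0 * T.Asum P x st i ω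
          have : cpsi2 P.ε (st.sig i) ω = Two.psi P.ε s0 := by
            simp only [cpsi2, ContinuousMap.coe_mk, dif_pos hε]; exact hpsi
          rw [this]
          exact sub_le_sub_left (mul_le_mul_of_nonneg_left (hav' i ω) hphi) _
    show _ ≤ (∑ i, T.fval P x st i) ω + _
    linarith
  have h1 : T.tau (st.live * (chub2 (T.xval P x st)
      + μ • (T.xval P x st + ContinuousMap.const Ω P.off))) ≤ μ * (5 * P.r) := by
    refine (T.tau_mono (g := (μ * (5 * P.r)) • (1 : C(Ω, ℝ))) fun ω => ?_).trans_eq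
      (by rw [map_smul, T.tau_one, smul_eq_mul, mul_one])
    show (1 : ℝ) * (Profile.hub (P.L - T.Fval P x st ω) + μ * (P.L - T.Fval P x st ω + 5 * P.r))
      ≤ μ * (5 * P.r) * 1
    rw [Profile.hub_zero_of_nonpos (by linarith [hF ω]), one_mul, mul_one, zero_add]
    exact mul_le_mul_of_nonneg_left (by linarith [hF ω]) hμ
  have h2 : μ * (∑ i, T.tau (st.sig i)) ≤ μ * P.r := by
    refine mul_le_mul_of_nonneg_left ((Finset.sum_le_sum fun i _ =>
      (T.tau_mono (g := 1) fun ω => show s0 ≤ 1 by linarith).trans_eq T.tau_one).trans ?_) hμ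
    simp
  have h3 : μ * (∑ i, T.tau (T.Asum P x st i)) ≤ μ * (2 * P.r) := by
    refine mul_le_mul_of_nonneg_left ((Finset.sum_le_sum fun i _ =>
      (T.tau_mono (hav i)).trans (?_ : _ ≤ (2 : ℝ))).trans ?_) hμ
    · rw [map_smul, T.tau_one, smul_eq_mul, mul_one, div_le_iff₀ hgp]; linarith
    · simp [mul_comm]
  have h4 : A * μ * (∑ i, (T.n2 (st.R i true * vpm x true) ^ 2
      + T.n2 (st.R i false * vpm x false) ^ 2)) = 0 := by
    simp [hst, T.n2_zero]
  rw [Vpot, Params.K₀]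
  simp only at h1 h2 h3 h4 ⊢
  have : 0 ≤ μ * P.r := by positivity
  linarith

variable (T P x) in
/-- paving from the one-step property -/
theorem endSpec : T.EndSpec P x := by
  classical
  intro hP hx hx1 _ hstep δ hδ
  have hε := hP.ε_pos
  have hε1 := hP.ε_le
  obtain ⟨d, hd0, hcut⟩ := T.exists_two_sided_cut P.r hε hx hx1 hδ
  set ηf := d / 2 with hηf
  have hηf0 : 0 < ηf := by positivity
  set κ := 1 / 2 + 2 * P.ε with hκ
  set a := 1 - 2 * P.ε with ha
  have ha0 : 0 < a := by rw [ha]; linarith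
  have hκlt : (1 + P.ε) / 2 / a < κ := by
    rw [div_lt_iff₀ ha0, hκ, ha]; nlinarith
  set dd := a * (κ * (κ - (1 + P.ε) / 2 / a)) with hdd
  have hdd0 : 0 < dd := mul_pos ha0 (mul_pos (by rw [hκ]; linarith) (by linarith))
  obtain ⟨⟨μ, γ, A⟩, c₀, hμ, hμ1, hγ, hγ1, hA₀, hA, hc₀, hstep'⟩ :=
    hstep ηf (P.K₀ / (ηf * dd ^ 2)) hηf0
  simp only at hμ hμ1 hγ hγ1 hA₀ hA
  obtain ⟨st₀, hst₀, hW₀⟩ := End.exists_start T hP hx hx1 (A := A) hμ.le hγ1
  obtain ⟨st, hst, hW, hlive⟩ := End.exists_end (S := ⟨μ, γ, A⟩) hP hμ.le hγ hA.le hc₀ hstep'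
    hst₀ hW₀
  obtain ⟨p, q, hp, hqi, hqσ, hpq, hqsum⟩ :=
    T.exists_pieces hP.r_pos ha0 hst.live_idem hst.sig_nonneg hst.assigned
  refine ⟨p, hp, ?_⟩
  have hgap : ∀ i s, (0 : M) ≤
      ((1 + P.ε) / 2) • (1 : M) - vpm x s * T.emb (st.sig i) * vpm x s + st.R i s :=
    fun i s => le_trans (smul_nonneg hγ.le zero_le_one) (hst.gap i s)
  choose e he1 he2 he3 he4 using fun i s =>
    T.exists_piece_cut (End.vpm_sa (x := x) s) (End.vpm_mul_self hx hx1 s)
      (ypm_facts hx hx1 s).2 (z := (1 + P.ε) / 2) (a := a) (κ := κ) (by linarith) ha0 hκlt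
      (hqi i) (hqσ i) (hst.R_sa i s) (hgap i s)
  have hn : ∑ i, (T.n2 (st.R i true * vpm x true) ^ 2 + T.n2 (st.R i false * vpm x false) ^ 2)
      ≤ P.K₀ / A := by
    have h := ((End.Vpot_parts (S := ⟨μ, γ, A⟩) hP hμ.le hγ hA.le hst).2).trans hW
    rw [le_div_iff₀ hA]
    refine le_of_mul_le_mul_left ?_ hμ
    calc μ * ((∑ i, (T.n2 (st.R i true * vpm x true) ^ 2
          + T.n2 (st.R i false * vpm x false) ^ 2)) * A)
        = A * μ * ∑ i, (T.n2 (st.R i true * vpm x true) ^ 2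
          + T.n2 (st.R i false * vpm x false) ^ 2) := by ring
      _ ≤ μ * P.K₀ := h
  have hA' : P.K₀ / A ≤ ηf * dd ^ 2 := by
    rw [div_le_iff₀ hA]
    rw [div_le_iff₀ (by positivity)] at hA₀
    linarith
  refine hcut p e hp (fun s i => ⟨he1 i s, by rw [← he2 i s, ← mul_assoc, ← map_mul, hpq i]⟩)
    (fun s => ?_) he3
  have hle : ∑ i, (T.tau (q i) - T.tr (e i s)) ≤ ∑ i, (T.n2 (st.R i s * vpm x s) / dd) ^ 2 :=
    Finset.sum_le_sum fun i _ => he4 i s
  have hbd : ∑ i, (T.n2 (st.R i s * vpm x s) / dd) ^ 2 ≤ ηf := by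
    simp only [div_pow, ← Finset.sum_div]
    rw [div_le_iff₀ (by positivity)]
    refine le_trans ?_ (hn.trans hA')
    refine Finset.sum_le_sum fun i _ => ?_
    cases s <;> linarith [sq_nonneg (T.n2 (st.R i true * vpm x true)),
      sq_nonneg (T.n2 (st.R i false * vpm x false))]
  rw [Finset.sum_sub_distrib, hqsum] at hle
  linarith

end SMasa

end Vale.Agent.P078.T3
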