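import Mathlib
import Vale.Agent.P078.Type3.End.Main
import Vale.Agent.P078.Type3.Step.Decomp

/-! The choice of the parameters of the trace-free walk, and paving from the one-step property. -/

noncomputable section

open scoped ComplexOrder

set_option linter.unusedSectionVars false

namespace Vale.Agent.P078.T3

universe u v

variable {M : Type u} [CStarAlgebra M] [PartialOrder M] [StarOrderedRing M]
  {Ω : Type v} [TopologicalSpace Ω] [CompactSpace Ω] [T2Space Ω]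

namespace Params

/-- the target value of the constraint -/
def Lof : ℝ := 2000000000

/-- the parameters belonging to `ε` -/
def ofEps (ε : ℝ) : Params := ⟨ε, ⌈40 * Lof / ε ^ 2⌉₊, Lof⟩

lemma Lof_ge : 8 ≤ Lof := by norm_num [Lof]

lemma ofEps_ok {ε : ℝ} (h0 : 0 < ε) (h1 : ε ≤ 1 / 16) : (ofEps ε).Ok ∧ (ofEps ε).Big := by
  have hL := Lof_ge
  have hc : 40 * Lof / ε ^ 2 ≤ (ofEps ε).r := Nat.le_ceil _
  have hc' : ((ofEps ε).r : ℝ) ≤ 40 * Lof / ε ^ 2 + 1 :=
    (Nat.ceil_lt_add_one (by positivity)).le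
  rw [div_le_iff₀ (by positivity)] at hc
  refine ⟨⟨h0, h1, ?_, hL, ?_, ?_⟩, ?_⟩
  · exact Nat.ceil_pos.2 (by positivity)
  · show Lof + 1 ≤ ((ofEps ε).r : ℝ) * (ε ^ 2 / 20)
    linarith
  · show ((ofEps ε).r : ℝ) * (ε ^ 2 / 400) ≤ Lof / 4
    have h := mul_le_mul_of_nonneg_right hc' (show 0 ≤ ε ^ 2 / 400 by positivity)
    have e : (40 * Lof / ε ^ 2 + 1) * (ε ^ 2 / 400) = Lof / 10 + ε ^ 2 / 400 := by
      field_simp
      ring
    rw [e] at h
    have : ε ^ 2 ≤ 1 := pow_le_one₀ h0.le (by linarith)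
    linarith
  · show 2000000000 ≤ Lof
    exact le_rfl

lemma ofEps_r_le {ε : ℝ} (h0 : 0 < ε) (h1 : ε ≤ 1 / 16) :
    ((ofEps ε).r : ℝ) ≤ 10 ^ 11 / ε ^ 2 := by
  refine (Nat.ceil_lt_add_one (by have := Lof_ge; positivity)).le.trans ?_
  have h2 : (1 : ℝ) ≤ 1 / ε ^ 2 := by
    rw [le_div_iff₀ (by positivity), one_mul]
    exact pow_le_one₀ h0.le (by linarith)
  rw [show (10 : ℝ) ^ 11 / ε ^ 2 = 40 * Lof / ε ^ 2 + (20000000000 : ℝ) * (1 / ε ^ 2) by
    rw [Lof]; ring]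
  linarith

end Params

/-- the number of pieces of the trace-free walk -/
def pieces3 (ε : ℝ) : ℕ := (Params.ofEps (ε / 16)).r

lemma pieces3_le {ε : ℝ} (h0 : 0 < ε) (h1 : ε < 1) :
    (pieces3 ε : ℝ) ≤ 10 ^ 11 * 16 ^ 2 / ε ^ 2 := by
  refine (Params.ofEps_r_le (by positivity) (by linarith)).trans (le_of_eq ?_)
  rw [div_pow, div_div_eq_mul_div]

namespace SMasa

/-- the one-step property for all admissible parameters -/
def StepAll (T : SMasa M Ω) : Prop :=
  ∀ (P : Params) (x : M), P.Ok → P.Big → IsSelfAdjoint x → ‖x‖ ≤ 1 → T.E x = 0 → T.StepSpec P x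

variable {T : SMasa M Ω} in
/-- paving with `O(ε⁻²)` pieces from the one-step property -/
theorem pavable_of_step (hstep : T.StepAll) {ε : ℝ} (h0 : 0 < ε) (h1 : ε < 1) {x : M}
    (hx : IsSelfAdjoint x) : T.Pavable x ε (pieces3 ε) := by
  intro δ hδ
  set P := Params.ofEps (ε / 16) with hP
  obtain ⟨hok, hbig⟩ := Params.ofEps_ok (ε := ε / 16) (by positivity) (by linarith)
  set a : C(Ω, ℝ) := T.E x with ha
  have hanorm : ‖a‖ ≤ ‖x‖ := T.norm_E_le hx
  set c : ℝ := (2 * ‖x‖)⁻¹ with hc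
  set u : M := c • (x - T.emb a) with hu
  have husa : IsSelfAdjoint u :=
    IsSelfAdjoint.smul (IsSelfAdjoint.all c) (hx.sub (T.emb_selfAdjoint a))
  have hun : ‖u‖ ≤ 1 := by
    have hxa : ‖x - T.emb a‖ ≤ 2 * ‖x‖ :=
      (norm_sub_le _ _).trans (by rw [T.emb_norm]; linarith)
    rw [hu, norm_smul, Real.norm_eq_abs, abs_of_nonneg (by positivity), hc]
    rcases eq_or_lt_of_le (norm_nonneg x) with h' | h'
    · simp [← h']
    · rw [inv_mul_le_iff₀ (by positivity)]; linarith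
  have hEu : T.E u = 0 := by rw [hu, map_smul, map_sub, T.E_emb, ha, sub_self, smul_zero]
  obtain ⟨p, hp, q, hq, hqtr, hqn⟩ := T.endSpec P u hok husa hun hEu
    (hstep P u hok hbig husa hun hEu) δ hδ
  refine ⟨p, hp, a, hanorm, q, hq, hqtr, ?_⟩
  show ‖q * ((∑ i : Fin P.r, T.emb (p i) * x * T.emb (p i)) - T.emb a) * q‖ ≤ ε * ‖x‖
  have key : (∑ i, T.emb (p i) * x * T.emb (p i)) - T.emb a =
      (2 * ‖x‖) • ∑ i, T.emb (p i) * u * T.emb (p i) := by
    have e1 : (2 * ‖x‖) • u = x - T.emb a := by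
      rw [hu, smul_smul, hc]
      rcases eq_or_lt_of_le (norm_nonneg x) with h' | h'
      · have hx0 : x = 0 := norm_eq_zero.1 h'.symm
        simp [hx0, ha]
      · rw [mul_inv_cancel₀ (by positivity), one_smul]
    have e2 : T.emb a = ∑ i, T.emb (p i) * T.emb a * T.emb (p i) := by
      simp only [← map_mul, mul_comm _ a, mul_assoc, hp.idem]
      rw [← map_sum, ← Finset.mul_sum, hp.sum_one, mul_one]
    conv_lhs => arg 2; rw [e2]
    rw [← Finset.sum_sub_distrib, Finset.smul_sum]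
    refine Finset.sum_congr rfl fun i _ => ?_
    rw [← sub_mul, ← mul_sub, ← e1]
    simp only [mul_smul_comm, smul_mul_assoc]
  rw [key, mul_smul_comm, smul_mul_assoc, norm_smul, Real.norm_eq_abs,
    abs_of_nonneg (by positivity)]
  calc 2 * ‖x‖ * ‖q * (∑ i, T.emb (p i) * u * T.emb (p i)) * q‖
      ≤ 2 * ‖x‖ * (5 * (ε / 16)) := mul_le_mul_of_nonneg_left hqn (by positivity)
    _ ≤ ε * ‖x‖ := by nlinarith [mul_nonneg h0.le (norm_nonneg x)]

end SMasa

end Vale.Agent.P078.T3
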